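import Vale.Agent.P318.Main

namespace Vale.Agent.Results.P318.AbelianCayley

open Vale.Agent.P318

theorem result : ∃ C : ℝ, ∀ (A : Type) [AddCommGroup A] [Fintype A] [DecidableEq A],
    2 ≤ Fintype.card A → ∀ c : A → A → ℝ, (∀ i j, 0 ≤ c i j) → (∀ i j, c i j = c j i) →
      (∀ i, c i i = 0) → (∀ a i j, c (i + a) (j + a) = c i j) →
      Phi c ≤ C * Real.log (Real.log (Fintype.card A) + 2) * gl c ∧
        Phi c ≤ C * Real.log (({s | c s 0 ≠ 0} : Set A).ncard + 2) * gl c :=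
  ⟨960, fun _ _ _ _ h2 c hc _ _ hinv => main h2 c hc hinv⟩

end Vale.Agent.Results.P318.AbelianCayley
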